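import Vale.Agent.P070.Statement
import Vale.Agent.P070.H500.Defs

/-! C*-algebras with a prescribed spectrum. -/

open Filter Topology

namespace Vale.Agent.P070.Naimark

universe u v w

/-- The spectrum of `B` is the topological space `X`: there are pairwise inequivalent irreducible
representations `π_x`, `x ∈ X`, all on the same Hilbert space, such that every irreducible
representation of `B` is equivalent to some `π_x`, and such that `x` is in the closure of
`S ⊆ X` iff `ker π_x` contains the intersection of the kernels `ker π_s`, `s ∈ S` (that is, the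
topology of `X` is the Jacobson topology). Moreover, for all `b ∈ B`, the function
`x ↦ ‖π_x(b)‖` is continuous and vanishes at infinity. -/
def SpectrumIs (B : Type u) [NonUnitalCStarAlgebra B] (X : Type w) [TopologicalSpace X] : Prop :=
  ∃ (L : Type v) (_ : NormedAddCommGroup L) (_ : InnerProductSpace ℂ L) (_ : CompleteSpace L)
    (π : X → Rep B L),
    (∀ x, IsIrred (π x)) ∧ (∀ x y, UnitEquiv (π x) (π y) → x = y) ∧
    (∀ (M : Type v) [NormedAddCommGroup M] [InnerProductSpace ℂ M] [CompleteSpace M]
      (σ : Rep B M), IsIrred σ → ∃ x, UnitEquiv (π x) σ) ∧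
    (∀ (x : X) (S : Set X),
      x ∈ closure S ↔ ∀ b : B, (∀ s ∈ S, (π s).op b = 0) → (π x).op b = 0) ∧
    ∀ b : B, Continuous (fun x => ‖(π x).op b‖) ∧
      Tendsto (fun x => ‖(π x).op b‖) (cocompact X) (𝓝 0)

end Vale.Agent.P070.Naimark
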