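import Vale.Agent.P070.H500S.Spec

/-! The spectrum of `C₀(X, A)`. -/

open scoped InnerProductSpace ZeroAtInfty
open Set Filter Topology

namespace Vale.Agent.P070.Naimark

universe u v w

section spec
variable {A : Type} [CStarAlgebra A] {X : Type u} [TopologicalSpace X]
  [T2Space X] [LocallyCompactSpace X]
  {M : Type v} [NormedAddCommGroup M] [InnerProductSpace ℂ M] [CompleteSpace M]

theorem exists_bump_apply (x : X) {C : Set X} (hC : IsClosed C) (hx : x ∉ C) (a : A) :
    ∃ f : C₀(X, A), f x = a ∧ ∀ y ∈ C, f y = 0 := by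
  obtain ⟨h, hc, h1, h2, -⟩ := exists_bump hC hx
  refine ⟨bmp h hc a, ?_, fun y hy => ?_⟩
  · rw [bmp_apply, h1, Complex.ofReal_one, one_smul]
  · rw [bmp_apply, h2 y hy, Complex.ofReal_zero, zero_smul]

theorem exists_apply_eq (x : X) (a : A) : ∃ f : C₀(X, A), f x = a := by
  obtain ⟨f, hf, -⟩ := exists_bump_apply x isClosed_empty (Set.notMem_empty x) a
  exact ⟨f, hf⟩

theorem ev_irred {π : Rep A M} (hπ : IsIrred π) (x : X) : IsIrred (evRep π x) := by
  refine ⟨?_, fun V hV hinv => hπ.2 V hV fun a ξ hξ => ?_⟩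
  · obtain ⟨a, ξ, hξ⟩ := hπ.1
    obtain ⟨f, hf⟩ := exists_apply_eq x a
    exact ⟨f, ξ, by rwa [evRep_op, hf]⟩
  · obtain ⟨f, hf⟩ := exists_apply_eq x a
    have := hinv f ξ hξ
    rwa [evRep_op, hf] at this

theorem ev_inequiv {π : Rep A M} (hπ : IsIrred π) {x y : X}
    (h : UnitEquiv (evRep π x) (evRep π y)) : x = y := by
  by_contra hxy
  obtain ⟨W, hW⟩ := h
  obtain ⟨ξ, hξ⟩ := @exists_ne M hπ.nontrivial 0
  apply hξ
  obtain ⟨f, hf1, hf2⟩ := exists_bump_apply x (isClosed_singleton (x := y)) hxy (1 : A)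
  have h1 := hW f ξ
  rw [evRep_op, evRep_op, hf1, hf2 y rfl, op_one hπ, op_zero, zero_apply] at h1
  exact (map_eq_zero_iff W W.injective).1 h1

theorem exists_factor' {σ : Rep C₀(X, A) M} (hσ : IsIrred σ) :
    ∃ (x : X) (τ : Rep A M), IsIrred τ ∧ ∀ f, σ.op f = τ.op (f x) := by
  obtain ⟨x, hx⟩ := exists_point hσ
  obtain ⟨h, hc, h1, -, -⟩ := exists_bump (x := x) isClosed_empty (Set.notMem_empty x)
  have hval : ∀ a : A, bmp h hc a x = a := fun a => by
    rw [bmp_apply, h1, Complex.ofReal_one, one_smul]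
  have hcong : ∀ f g : C₀(X, A), f x = g x → σ.op f = σ.op g := by
    intro f g hfg
    rw [← sub_eq_zero, ← op_sub]
    refine hx _ ?_
    show f x - g x = 0
    rw [hfg, sub_self]
  let τ : Rep A M := show A →⋆ₙₐ[ℂ] (M →L[ℂ] M) from
    { toFun := fun a => σ.op (bmp h hc a)
      map_smul' := fun c a => by
        show σ.op (bmp h hc (c • a)) = c • σ.op (bmp h hc a)
        rw [← op_smul]
        refine hcong _ _ ?_
        rw [hval]
        show c • a = c • bmp h hc a x
        rw [hval]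
      map_zero' := by
        rw [← op_zero σ]
        refine hcong _ _ ?_
        rw [hval]
        rfl
      map_add' := fun a b => by
        rw [← op_add]
        refine hcong _ _ ?_
        rw [hval]
        show a + b = bmp h hc a x + bmp h hc b x
        rw [hval, hval]
      map_mul' := fun a b => by
        rw [← op_mul]
        refine hcong _ _ ?_
        rw [hval]
        show a * b = bmp h hc a x * bmp h hc b x
        rw [hval, hval]
      map_star' := fun a => by
        show σ.op (bmp h hc (star a)) = star (σ.op (bmp h hc a))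
        have e1 : star (σ.op (bmp h hc a)) = σ.op (star (bmp h hc a)) :=
          (map_star (F := C₀(X, A) →⋆ₙₐ[ℂ] (M →L[ℂ] M)) σ (bmp h hc a)).symm
        rw [e1]
        refine hcong _ _ ?_
        rw [hval]
        show star a = star (bmp h hc a x)
        rw [hval] }
  have hτ : ∀ a, τ.op a = σ.op (bmp h hc a) := fun a => rfl
  have h2 : ∀ f, σ.op f = τ.op (f x) := by
    intro f
    rw [hτ]
    refine hcong _ _ ?_
    rw [hval]
  refine ⟨x, τ, ⟨?_, fun V hV hinv => hσ.2 V hV fun f ξ hξ => ?_⟩, h2⟩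
  · obtain ⟨f, ξ, hξ⟩ := hσ.1
    exact ⟨f x, ξ, by rwa [← h2]⟩
  · rw [h2]
    exact hinv _ ξ hξ

/-- The closure relation of `X` in terms of `C₀(X, A)`. -/
theorem mem_closure_iff_ev [Nontrivial A] {S : Set X} {x : X} :
    x ∈ closure S ↔ ∀ f : C₀(X, A), (∀ s ∈ S, f s = 0) → f x = 0 := by
  refine ⟨fun hx f hf => ?_, fun h => ?_⟩
  · have h1 : IsClosed {y | f y = 0} := isClosed_eq (map_continuous f) continuous_const
    have h2 : S ⊆ {y | f y = 0} := fun s hs => hf s hs
    exact closure_minimal h2 h1 hx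
  · by_contra hx
    obtain ⟨f, hf1, hf2⟩ := exists_bump_apply x isClosed_closure hx (1 : A)
    have h1 := h f fun s hs => hf2 s (subset_closure hs)
    rw [hf1] at h1
    exact one_ne_zero h1

theorem compactFree_C0 (hC : CompactFree.{0, v} A) : CompactFree.{u, v} C₀(X, A) := by
  intro M _ _ _ σ hσ f hf
  obtain ⟨x, τ, hτ, hfac⟩ := exists_factor' hσ
  rw [hfac] at hf ⊢
  exact hC M _ hτ _ hf

theorem nontrivial_C0 [Nonempty X] [Nontrivial A] : Nontrivial C₀(X, A) := by
  obtain ⟨x⟩ := ‹Nonempty X›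
  obtain ⟨f, hf⟩ := exists_apply_eq x (1 : A)
  refine ⟨f, 0, fun h => ?_⟩
  have h1 : f x = (0 : C₀(X, A)) x := by rw [h]
  rw [hf] at h1
  exact one_ne_zero h1

omit [T2Space X] [LocallyCompactSpace X] in
theorem exists_unit_of_compact [CompactSpace X] :
    ∃ e : C₀(X, A), ∀ f : C₀(X, A), e * f = f ∧ f * e = f := by
  refine ⟨⟨⟨fun _ => 1, continuous_const⟩, ?_⟩, fun f => ⟨?_, ?_⟩⟩
  · rw [Filter.cocompact_eq_bot]
    exact tendsto_bot
  · ext i
    exact one_mul _
  · ext i
    exact mul_one _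

theorem compact_of_exists_unit [Nontrivial A]
    (h : ∃ e : C₀(X, A), ∀ f : C₀(X, A), e * f = f ∧ f * e = f) : CompactSpace X := by
  obtain ⟨e, he⟩ := h
  have h1 : ∀ x, e x = 1 := by
    intro x
    obtain ⟨f, hf⟩ := exists_apply_eq x (1 : A)
    have h2 : (e * f) x = f x := by rw [(he f).1]
    have h3 : (e * f) x = e x * f x := rfl
    rw [h3, hf, mul_one] at h2
    exact h2
  have h2 : Tendsto e (cocompact X) (𝓝 0) := e.zero_at_infty'
  have h3 : (e : X → A) = fun _ => 1 := funext h1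
  rw [h3] at h2
  by_contra hcon
  have hnc : NoncompactSpace X := not_compactSpace_iff.1 hcon
  exact one_ne_zero (tendsto_nhds_unique tendsto_const_nhds h2)

end spec

end Vale.Agent.P070.Naimark
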