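import Vale.Agent.P070.H500S.Defs
import Vale.Agent.P070.H500S.Spec2
import Mathlib.Analysis.CStarAlgebra.Hom
import Mathlib.SetTheory.Cardinal.Continuum

/-! C*-algebras with prescribed spectrum and no compact operators in their irreducible
representations. -/

open scoped InnerProductSpace ZeroAtInfty
open Set Filter Topology

namespace Vale.Agent.P070.Naimark

open TopologicalSpace

universe u v w

section
variable {A : Type} [CStarAlgebra A] {X : Type u} [TopologicalSpace X]
  [T2Space X] [LocallyCompactSpace X]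

theorem norm_faithful {L : Type v} [NormedAddCommGroup L] [InnerProductSpace ℂ L]
    [CompleteSpace L] {π : Rep A L} (hπ : IsFaithful π) (a : A) : ‖π.op a‖ = ‖a‖ :=
  NonUnitalStarAlgHom.norm_map (F := A →⋆ₙₐ[ℂ] (L →L[ℂ] L)) π hπ a

theorem spectrumIs (hN : PropertyN.{0, v} A) (hF : HasFaithfulIrrep.{0, v} A) :
    SpectrumIs.{u, v, u} C₀(X, A) X := by
  have hnt : Nontrivial A := hN.1
  obtain ⟨L, i1, i2, i3, π, hf, hπ⟩ := hF
  have hop0 : ∀ (x : X) (f : C₀(X, A)), (evRep π x).op f = 0 ↔ f x = 0 := by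
    intro x f
    rw [evRep_op]
    refine ⟨fun h => hf ?_, fun h => by rw [h, op_zero]⟩
    rw [h, op_zero]
  refine ⟨L, i1, i2, i3, fun x => evRep π x, fun x => ev_irred hπ x,
    fun x y h => ev_inequiv hπ h, ?_, ?_, ?_⟩
  · intro K _ _ _ σ hσ
    obtain ⟨x, τ, hτ, hfac⟩ := exists_factor' hσ
    obtain ⟨W, hW⟩ := hN.2 L K π τ hπ hτ
    refine ⟨x, W, fun f ξ => ?_⟩
    rw [hfac, ← hW]
    rfl
  · intro x S
    rw [mem_closure_iff_ev (A := A)]
    exact forall_congr' fun f => imp_congr
      (forall_congr' fun s => imp_congr Iff.rfl (hop0 s f).symm) (hop0 x f).symm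
  · intro f
    have h2 := f.zero_at_infty'.norm
    rw [norm_zero] at h2
    have h1 : (fun x => ‖(evRep π x).op f‖) = fun x => ‖f x‖ := by
      funext x
      exact norm_faithful hf (f x)
    have h3 : Continuous (fun x => ‖(evRep π x).op f‖) ∧
        Tendsto (fun x => ‖(evRep π x).op f‖) (cocompact X) (𝓝 0) := by
      rw [h1]
      exact ⟨(map_continuous f).norm, h2⟩
    exact h3

theorem card_C0 (hA : Cardinal.mk A ≤ Cardinal.continuum) [Nontrivial A] [Nonempty X]
    [SeparableSpace X] : Cardinal.mk C₀(X, A) = Cardinal.continuum.{u} := by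
  have hnt : Nontrivial C₀(X, A) := nontrivial_C0
  obtain ⟨s, hs⟩ := TopologicalSpace.exists_dense_seq X
  refine le_antisymm ?_ ?_
  · have h1 : Cardinal.mk C₀(X, A) ≤ Cardinal.mk (ULift.{u} ℕ → ULift.{u} A) := by
      refine Cardinal.mk_le_of_injective
        (f := fun f n => ULift.up (f (s n.down))) fun f g hfg => ?_
      ext x
      have h2 : (f : X → A) = g := by
        refine Continuous.ext_on hs (map_continuous f) (map_continuous g) ?_
        rintro _ ⟨n, rfl⟩
        exact congrArg ULift.down (congrFun hfg ⟨n⟩)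
      exact congrFun h2 x
    refine h1.trans ?_
    rw [← Cardinal.power_def, Cardinal.mk_uLift, Cardinal.mk_uLift, Cardinal.mk_nat,
      Cardinal.lift_aleph0, ← Cardinal.continuum_power_aleph0]
    refine Cardinal.power_le_power_right ?_
    rw [← Cardinal.lift_continuum.{u, 0}]
    exact Cardinal.lift_le.2 hA
  · obtain ⟨f, hf⟩ := exists_ne (0 : C₀(X, A))
    have h1 : Cardinal.mk (ULift.{u} ℂ) ≤ Cardinal.mk C₀(X, A) := by
      refine Cardinal.mk_le_of_injective (f := fun c : ULift.{u} ℂ => c.down • f) ?_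
      exact (smul_left_injective ℂ hf).comp ULift.down_injective
    rwa [Cardinal.mk_uLift, Cardinal.mk_complex, Cardinal.lift_continuum] at h1

end

theorem prescribed : (∃ (A : Type) (_ : CStarAlgebra A),
      PropertyN.{0, v} A ∧ ¬ IsCompacts.{0, w} A) ∧
    ∀ (X : Type u) [TopologicalSpace X] [T2Space X] [LocallyCompactSpace X] [Nonempty X],
      ∃ (B : Type u) (_ : NonUnitalCStarAlgebra B),
        SpectrumIs.{u, v, u} B X ∧ CompactFree.{u, v} B ∧ ¬ IsCompacts.{u, v} B ∧
        ((∃ e : B, ∀ b : B, e * b = b ∧ b * e = b) ↔ CompactSpace X) ∧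
        (SeparableSpace X → Cardinal.mk B = Cardinal.continuum) := by
  obtain ⟨A, _, hN, hC, hinf, hF, hcard, hline⟩ := main'.{v, w}
  have hF' := exists_faithful.{v} hF
  have hfree := compactFree hN hF' hinf
  have hnt : Nontrivial A := hN.1
  refine ⟨⟨A, inferInstance, hN, hC⟩, ?_⟩
  intro X _ _ _ _
  have hntB : Nontrivial C₀(X, A) := nontrivial_C0
  have hfX : CompactFree.{u, v} C₀(X, A) := compactFree_C0 hfree
  exact ⟨C₀(X, A), inferInstance, spectrumIs hN hF', hfX,
    hfX.not_isCompacts, ⟨compact_of_exists_unit, fun _ => exists_unit_of_compact⟩,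
    fun _ => card_C0 hcard⟩

end Vale.Agent.P070.Naimark
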