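import Vale.Agent.P070.H500.Main
import Mathlib.Topology.UrysohnsLemma
import Mathlib.Topology.PartitionOfUnity
import Mathlib.Topology.ContinuousMap.ZeroAtInfty

/-! Irreducible representations of `C₀(X, A)`, `X` a locally compact Hausdorff space and `A` a
unital C*-algebra with property (N). -/

open scoped InnerProductSpace ZeroAtInfty
open Set Filter Topology

namespace Vale.Agent.P070.Naimark

universe u v w

section spec
variable {A : Type} [CStarAlgebra A] {X : Type u} [TopologicalSpace X]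

/-- `y ↦ h(y) f(y)`, `0 ≤ h ≤ 1`. -/
noncomputable def cut (h : C(X, ℝ)) (hb : ∀ x, h x ∈ Set.Icc (0 : ℝ) 1) (f : C₀(X, A)) :
    C₀(X, A) where
  toFun := fun y => ((h y : ℝ) : ℂ) • f y
  continuous_toFun := by fun_prop
  zero_at_infty' := by
    have h1 := f.zero_at_infty'
    have h2 : Tendsto (fun y => ‖f y‖) (cocompact X) (𝓝 0) := by
      have := h1.norm
      rwa [norm_zero] at this
    refine squeeze_zero_norm (fun y => ?_) h2
    show ‖((h y : ℝ) : ℂ) • f y‖ ≤ ‖f y‖
    rw [norm_smul, Complex.norm_real, Real.norm_of_nonneg (hb y).1]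
    exact mul_le_of_le_one_left (norm_nonneg _) (hb y).2

theorem cut_apply (h : C(X, ℝ)) (hb : ∀ x, h x ∈ Set.Icc (0 : ℝ) 1) (f : C₀(X, A)) (y : X) :
    cut h hb f y = ((h y : ℝ) : ℂ) • f y := rfl

/-- `y ↦ h(y) a`, `h` with compact support. -/
noncomputable def bmp (h : C(X, ℝ)) (hc : HasCompactSupport h) (a : A) : C₀(X, A) where
  toFun := fun y => ((h y : ℝ) : ℂ) • a
  continuous_toFun := by fun_prop
  zero_at_infty' := by
    have h1 : HasCompactSupport (fun y => ((h y : ℝ) : ℂ) • a) :=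
      hc.comp_left (g := fun t : ℝ => (t : ℂ) • a) (by simp)
    exact h1.is_zero_at_infty

theorem bmp_apply (h : C(X, ℝ)) (hc : HasCompactSupport h) (a : A) (y : X) :
    bmp h hc a y = ((h y : ℝ) : ℂ) • a := rfl

variable [T2Space X] [LocallyCompactSpace X]

/-- A function in `C₀(X, A)` with value `a` at `x` which vanishes on a closed set not
containing `x`. -/
theorem exists_bump {x : X} {C : Set X} (hC : IsClosed C) (hx : x ∉ C) :
    ∃ (h : C(X, ℝ)) (_ : HasCompactSupport h), h x = 1 ∧ (∀ y ∈ C, h y = 0) ∧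
      ∀ y, h y ∈ Set.Icc (0 : ℝ) 1 := by
  obtain ⟨h, h1, h2, h3, h4⟩ := exists_continuous_one_zero_of_isCompact
    (isCompact_singleton (x := x)) hC (by rwa [Set.disjoint_singleton_left])
  exact ⟨h, h3, h1 (Set.mem_singleton x), fun y hy => h2 hy, h4⟩

variable {M : Type v} [NormedAddCommGroup M] [InnerProductSpace ℂ M] [CompleteSpace M]

omit [T2Space X] [LocallyCompactSpace X] in
theorem C0_norm_le {f : C₀(X, A)} {ε : ℝ} (hε : 0 ≤ ε) (h : ∀ x, ‖f x‖ ≤ ε) : ‖f‖ ≤ ε := by
  rw [← ZeroAtInftyContinuousMap.norm_toBCF_eq_norm, BoundedContinuousFunction.norm_le hε]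
  exact h

/-- Some point `x` lies in the support of `σ ≠ 0`. -/
theorem exists_support {σ : Rep C₀(X, A) M} (hσ : ∃ f, σ.op f ≠ 0) :
    ∃ x : X, ∀ U : Set X, IsOpen U → x ∈ U →
      ∃ g : C₀(X, A), (∀ y, y ∉ U → g y = 0) ∧ σ.op g ≠ 0 := by
  by_contra hcon
  push Not at hcon
  choose U hUo hxU hU using hcon
  obtain ⟨f, hf⟩ := hσ
  apply hf
  rw [← norm_le_zero_iff]
  refine le_of_forall_pos_le_add fun ε hε => ?_
  rw [zero_add]
  -- cut off at infinity
  have h1 : ∀ᶠ y in cocompact X, ‖f y‖ < ε := by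
    have h2 : Tendsto (fun y => ‖f y‖) (cocompact X) (𝓝 0) := by
      have := f.zero_at_infty'.norm
      rwa [norm_zero] at this
    exact h2.eventually_lt_const hε
  obtain ⟨K, hK, hKs⟩ := mem_cocompact.1 h1
  obtain ⟨h, e1, -, hc, hb⟩ := exists_continuous_one_zero_of_isCompact hK isClosed_empty
    (Set.disjoint_empty K)
  have hcK : IsCompact (tsupport h) := hc
  -- partition of unity on the support of `h`
  obtain ⟨t, ht⟩ := hcK.elim_finite_subcover U hUo
    (fun y _ => Set.mem_iUnion.2 ⟨y, hxU y⟩)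
  obtain ⟨p, hp1, hp2, hp3, -⟩ := exists_continuous_sum_one_of_isOpen_isCompact
    (s := fun i : Fin t.card => U (t.equivFin.symm i)) (fun i => hUo _) hcK (by
      intro y hy
      obtain ⟨z, hz⟩ := Set.mem_iUnion.1 (ht hy)
      obtain ⟨hzt, hyz⟩ := Set.mem_iUnion.1 hz
      refine Set.mem_iUnion.2 ⟨t.equivFin ⟨z, hzt⟩, ?_⟩
      rw [Equiv.symm_apply_apply]
      exact hyz)
  set f' : C₀(X, A) := cut h hb f with hf'
  have hsum : f' = ∑ i, cut (p i) (hp3 i) f' := by
    ext y
    have e2 : (∑ i, cut (p i) (hp3 i) f') y = ∑ i, (cut (p i) (hp3 i) f') y :=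
      map_sum (evHom y) (fun i => cut (p i) (hp3 i) f') Finset.univ
    rw [e2]
    simp only [cut_apply]
    rw [← Finset.sum_smul]
    by_cases hy : y ∈ tsupport h
    · have e3 := hp2 hy
      have e4 : ∑ i, p i y = 1 := by
        have e6 : (∑ i, (⇑(p i) : X → ℝ)) y = ∑ i, p i y := Finset.sum_apply _ _ _
        rw [← e6, e3]; rfl
      have e5 : ∑ i, ((p i y : ℝ) : ℂ) = 1 := by
        rw [← Complex.ofReal_sum, e4, Complex.ofReal_one]
      rw [e5, one_smul]
    · have e3 : h y = 0 := image_eq_zero_of_notMem_tsupport hy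
      rw [hf', cut_apply, e3]
      simp
  have h2 : σ.op f' = 0 := by
    rw [hsum]
    have e2 : σ.op (∑ i, cut (p i) (hp3 i) f') = ∑ i, σ.op (cut (p i) (hp3 i) f') :=
      map_sum (opLin σ) (fun i => cut (p i) (hp3 i) f') Finset.univ
    rw [e2]
    refine Finset.sum_eq_zero fun i _ => hU (t.equivFin.symm i) _ fun y hy => ?_
    have e3 : p i y = 0 := image_eq_zero_of_notMem_tsupport fun h0 => hy (hp1 i h0)
    rw [cut_apply, e3]
    simp
  have h3 : σ.op f = σ.op (f - f') := by rw [op_sub, h2, sub_zero]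
  rw [h3]
  refine (op_norm_le σ _).trans (C0_norm_le hε.le fun y => ?_)
  show ‖f y - cut h hb f y‖ ≤ ε
  rw [cut_apply]
  by_cases hy : y ∈ K
  · have e3 : h y = 1 := e1 hy
    rw [e3]
    simp [hε.le]
  · have e3 : ‖f y‖ < ε := hKs hy
    have e4 : f y - ((h y : ℝ) : ℂ) • f y = ((1 - h y : ℝ) : ℂ) • f y := by
      push_cast
      rw [sub_smul, one_smul]
    rw [e4, norm_smul, Complex.norm_real, Real.norm_of_nonneg (by linarith [(hb y).2])]
    have e5 : (1 - h y) * ‖f y‖ ≤ 1 * ‖f y‖ :=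
      mul_le_mul_of_nonneg_right (by linarith [(hb y).1]) (norm_nonneg _)
    linarith

/-- An irreducible representation of `C₀(X, A)` kills all functions vanishing at some point. -/
theorem exists_point {σ : Rep C₀(X, A) M} (hσ : IsIrred σ) :
    ∃ x : X, ∀ f : C₀(X, A), f x = 0 → σ.op f = 0 := by
  obtain ⟨x, hx⟩ := exists_support (σ := σ) (by
    obtain ⟨f, z, hz⟩ := hσ.1
    exact ⟨f, fun h => hz (by rw [h, zero_apply])⟩)
  refine ⟨x, ?_⟩
  -- first: functions vanishing near `x`
  have key : ∀ (U : Set X), IsOpen U → x ∈ U → ∀ f : C₀(X, A), (∀ y ∈ U, f y = 0) →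
      σ.op f = 0 := by
    intro U hU hxU f hf
    obtain ⟨g, hg, hg0⟩ := hx U hU hxU
    obtain ⟨ξ, hξ⟩ : ∃ ξ, σ.op g ξ ≠ 0 := by
      by_contra hcon
      push Not at hcon
      exact hg0 (ContinuousLinearMap.ext hcon)
    have e1 : f * g = 0 := by
      ext y
      show f y * g y = 0
      by_cases hy : y ∈ U
      · rw [hf y hy, zero_mul]
      · rw [hg y hy, mul_zero]
    have e2 : ∀ b : C₀(X, A), f * (b * g) = 0 := by
      intro b
      ext y
      show f y * (b y * g y) = 0
      by_cases hy : y ∈ U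
      · rw [hf y hy, zero_mul]
      · rw [hg y hy, mul_zero, mul_zero]
    let V : Submodule ℂ M :=
      { carrier := {ζ | σ.op f ζ = 0 ∧ ∀ b, σ.op f (σ.op b ζ) = 0}
        add_mem' := fun {ζ η} h1 h2 => ⟨by rw [map_add, h1.1, h2.1, add_zero],
          fun b => by rw [map_add, map_add, h1.2, h2.2, add_zero]⟩
        zero_mem' := ⟨by rw [map_zero], fun b => by rw [map_zero, map_zero]⟩
        smul_mem' := fun c ζ h1 => ⟨by rw [map_smul, h1.1, smul_zero],
          fun b => by rw [map_smul, map_smul, h1.2, smul_zero]⟩ }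
    have hV : IsClosed (V : Set M) := by
      have : (V : Set M) = {ζ | σ.op f ζ = 0} ∩ ⋂ b, {ζ | σ.op f (σ.op b ζ) = 0} := by
        ext ζ
        simp only [V, Submodule.coe_set_mk, AddSubmonoid.coe_set_mk, AddSubsemigroup.coe_set_mk,
          Set.mem_ofPred_eq, Set.mem_inter_iff, Set.mem_iInter]
      rw [this]
      refine (isClosed_eq (σ.op f).continuous continuous_const).inter
        (isClosed_iInter fun b => isClosed_eq ?_ continuous_const)
      exact (σ.op f).continuous.comp (σ.op b).continuous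
    rcases hσ.2 V hV (by
      intro c ζ hζ
      refine ⟨hζ.2 c, fun b => ?_⟩
      rw [← op_mul_apply σ b c]
      exact hζ.2 (b * c)) with h1 | h1
    · exfalso
      apply hξ
      have h2 : σ.op g ξ ∈ V := by
        refine ⟨?_, fun b => ?_⟩
        · rw [← op_mul_apply, e1, op_zero, zero_apply]
        · rw [← op_mul_apply, ← op_mul_apply, mul_assoc, e2, op_zero, zero_apply]
      rwa [h1, Submodule.mem_bot] at h2
    · ext ζ
      have h2 : ζ ∈ V := by rw [h1]; trivial
      exact h2.1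
  intro f hfx
  rw [← norm_le_zero_iff]
  refine le_of_forall_pos_le_add fun ε hε => ?_
  rw [zero_add]
  have hUo : IsOpen {y | ‖f y‖ < ε} := isOpen_lt (by fun_prop) continuous_const
  have hxU : x ∈ {y | ‖f y‖ < ε} := by
    show ‖f x‖ < ε
    rw [hfx, norm_zero]
    exact hε
  obtain ⟨K, hK, hxK, hKU⟩ := exists_compact_subset hUo hxU
  obtain ⟨h, e1, e2, hc, hb⟩ := exists_continuous_one_zero_of_isCompact hK hUo.isClosed_compl
    (by rw [Set.disjoint_compl_right_iff_subset]; exact hKU)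
  have h1 : σ.op (f - cut h hb f) = 0 := by
    refine key (interior K) isOpen_interior hxK _ fun y hy => ?_
    show f y - cut h hb f y = 0
    have e3 : h y = 1 := e1 (interior_subset hy)
    rw [cut_apply, e3, Complex.ofReal_one, one_smul, sub_self]
  have h2 : σ.op f = σ.op (cut h hb f) := by
    rw [op_sub, sub_eq_zero] at h1
    exact h1
  rw [h2]
  refine (op_norm_le σ _).trans (C0_norm_le hε.le fun y => ?_)
  rw [cut_apply, norm_smul, Complex.norm_real, Real.norm_of_nonneg (hb y).1]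
  by_cases hy : y ∈ {y | ‖f y‖ < ε}
  · have e3 : ‖f y‖ < ε := hy
    exact (mul_le_of_le_one_left (norm_nonneg _) (hb y).2).trans e3.le
  · have e3 : h y = 0 := e2 hy
    rw [e3, zero_mul]
    exact hε.le

end spec

end Vale.Agent.P070.Naimark
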